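import Mathlib

/-!
# Antisymmetric polynomials: dimensions

`S` finite set with types `τ : S → I`.  `Anti k τ` is the space of polynomials in `x_s, s ∈ S`, which
are antisymmetric under the type preserving permutations.  The dimension of its homogeneous part of
degree `n` is the number of families `A : I → Finset ℕ` with `|A i| = |τ⁻¹ i|` and
`∑ i, ∑ x ∈ A i, x = n`.
-/

set_option autoImplicit false
set_option linter.unusedSectionVars false

open Finset MvPolynomial

namespace Vale.Agent.P066.Lab.H403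

noncomputable section

variable {S I : Type} [Fintype S] [DecidableEq S] [DecidableEq I]

/-- the permutations of `S` which preserve the types -/
def TP (τ : S → I) : Finset (Equiv.Perm S) := univ.filter fun σ => ∀ s, τ (σ s) = τ s

theorem mem_TP {τ : S → I} {σ : Equiv.Perm S} : σ ∈ TP τ ↔ ∀ s, τ (σ s) = τ s := by
  simp [TP]

theorem one_mem_TP (τ : S → I) : (1 : Equiv.Perm S) ∈ TP τ := by simp [mem_TP]

theorem mul_mem_TP {τ : S → I} {σ ρ : Equiv.Perm S} (h : σ ∈ TP τ) (h' : ρ ∈ TP τ) :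
    σ * ρ ∈ TP τ := by
  rw [mem_TP] at *
  intro s
  rw [Equiv.Perm.mul_apply, h, h']

theorem inv_mem_TP {τ : S → I} {σ : Equiv.Perm S} (h : σ ∈ TP τ) : σ⁻¹ ∈ TP τ := by
  rw [mem_TP] at *
  intro s
  have h1 := h (σ⁻¹ s)
  rw [show σ (σ⁻¹ s) = s from Equiv.apply_symm_apply σ s] at h1
  exact h1.symm

variable (k : Type) [Field k]

/-- polynomials which are antisymmetric under the type preserving permutations -/
def Anti (τ : S → I) : Submodule k (MvPolynomial S k) where
  carrier := {f | ∀ σ : Equiv.Perm S, (∀ s, τ (σ s) = τ s) →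
    rename σ f = (((Equiv.Perm.sign σ : ℤˣ) : ℤ) : k) • f}
  add_mem' := by
    intro f g hf hg σ hσ
    rw [map_add, hf σ hσ, hg σ hσ, smul_add]
  zero_mem' := by
    intro σ _
    rw [map_zero, smul_zero]
  smul_mem' := by
    intro c f hf σ hσ
    rw [map_smul, hf σ hσ, smul_comm]

variable {k}

theorem mem_Anti {τ : S → I} {f : MvPolynomial S k} : f ∈ Anti k τ ↔
    ∀ σ : Equiv.Perm S, (∀ s, τ (σ s) = τ s) →
    rename σ f = (((Equiv.Perm.sign σ : ℤˣ) : ℤ) : k) • f := Iff.rfl

theorem sign_mul_self' (σ : Equiv.Perm S) :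
    (((Equiv.Perm.sign σ : ℤˣ) : ℤ) : k) * (((Equiv.Perm.sign σ : ℤˣ) : ℤ) : k) = 1 := by
  rw [← Int.cast_mul, ← Units.val_mul, Int.units_mul_self]
  simp

theorem coeff_mapDomain {τ : S → I} {f : MvPolynomial S k} (hf : f ∈ Anti k τ)
    {σ : Equiv.Perm S} (hσ : σ ∈ TP τ) (m : S →₀ ℕ) :
    coeff (m.mapDomain σ) f = (((Equiv.Perm.sign σ : ℤˣ) : ℤ) : k) * coeff m f := by
  have h1 := coeff_rename_mapDomain σ σ.injective f m
  rw [hf σ (mem_TP.1 hσ), coeff_smul, smul_eq_mul] at h1
  rw [← h1, ← mul_assoc, sign_mul_self', one_mul]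

/-- exponents which are injective on every type -/
def Reg (τ : S → I) (m : S →₀ ℕ) : Prop := ∀ s t, τ s = τ t → m s = m t → s = t

theorem coeff_eq_zero_of_not_reg [CharZero k] {τ : S → I} {f : MvPolynomial S k}
    (hf : f ∈ Anti k τ) {m : S →₀ ℕ} (hm : ¬ Reg τ m) : coeff m f = 0 := by
  unfold Reg at hm
  push Not at hm
  obtain ⟨s, t, h1, h2, h3⟩ := hm
  have hσ : Equiv.swap s t ∈ TP τ := by
    rw [mem_TP]
    intro x
    by_cases hx : x = s
    · subst hx; rw [Equiv.swap_apply_left, h1]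
    by_cases hx' : x = t
    · subst hx'; rw [Equiv.swap_apply_right, h1]
    rw [Equiv.swap_apply_of_ne_of_ne hx hx']
  have h4 : m.mapDomain (Equiv.swap s t) = m := by
    ext x
    have h5 := Finsupp.mapDomain_apply (Equiv.swap s t).injective m (Equiv.swap s t x)
    rw [Equiv.swap_apply_self] at h5
    rw [h5]
    by_cases hx : x = s
    · subst hx; rw [Equiv.swap_apply_left, h2]
    by_cases hx' : x = t
    · subst hx'; rw [Equiv.swap_apply_right, h2]
    rw [Equiv.swap_apply_of_ne_of_ne hx hx']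
  have h6 := coeff_mapDomain hf hσ m
  rw [h4, Equiv.Perm.sign_swap h3] at h6
  have h7 : coeff m f = - coeff m f := by simpa using h6
  have h8 : (2 : k) * coeff m f = 0 := by linear_combination h7
  rcases mul_eq_zero.1 h8 with h | h
  · exact absurd h two_ne_zero
  · exact h

/-- the family of a regular exponent -/
def fam (τ : S → I) (m : S →₀ ℕ) (i : I) : Finset ℕ := (univ.filter fun s => τ s = i).image m

theorem card_fam {τ : S → I} {m : S →₀ ℕ} (hm : Reg τ m) (i : I) :
    (fam τ m i).card = (univ.filter fun s => τ s = i).card := by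
  unfold fam
  refine card_image_of_injOn ?_
  intro s hs t ht h
  exact hm s t ((mem_filter.1 hs).2.trans (mem_filter.1 ht).2.symm) h

theorem exists_perm {τ : S → I} {m m' : S →₀ ℕ} (hm : Reg τ m)
    (h : ∀ i, fam τ m i = fam τ m' i) : ∃ σ ∈ TP τ, m.mapDomain σ = m' := by
  have h1 : ∀ s, ∃ t, τ t = τ s ∧ m' t = m s := by
    intro s
    have h2 : m s ∈ fam τ m (τ s) := mem_image_of_mem _ (by simp)
    rw [h] at h2
    obtain ⟨t, ht, ht'⟩ := mem_image.1 h2
    exact ⟨t, (mem_filter.1 ht).2, ht'⟩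
  choose g hg hg' using h1
  have hinj : Function.Injective g := by
    intro s t hst
    refine hm s t ?_ ?_
    · rw [← hg, ← hg t, hst]
    · rw [← hg', ← hg' t, hst]
  have hbij : Function.Bijective g := Finite.injective_iff_bijective.1 hinj
  refine ⟨Equiv.ofBijective g hbij, ?_, ?_⟩
  · rw [mem_TP]
    intro s
    rw [Equiv.ofBijective_apply, hg]
  · ext x
    obtain ⟨s, rfl⟩ := hbij.2 x
    have h3 := Finsupp.mapDomain_apply (Equiv.ofBijective g hbij).injective m s
    rw [Equiv.ofBijective_apply] at h3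
    rw [h3, hg']

theorem perm_eq_one {τ : S → I} {m : S →₀ ℕ} (hm : Reg τ m) {σ : Equiv.Perm S}
    (hσ : σ ∈ TP τ) (h : m.mapDomain σ = m) : σ = 1 := by
  ext s
  have h1 := Finsupp.mapDomain_apply σ.injective m s
  rw [h] at h1
  exact hm _ _ (mem_TP.1 hσ s) h1

theorem reg_mapDomain {τ : S → I} {m : S →₀ ℕ} (hm : Reg τ m) {σ : Equiv.Perm S}
    (hσ : σ ∈ TP τ) : Reg τ (m.mapDomain σ) := by
  intro s t h1 h2
  obtain ⟨s, rfl⟩ := σ.surjective s
  obtain ⟨t, rfl⟩ := σ.surjective t
  rw [Finsupp.mapDomain_apply σ.injective, Finsupp.mapDomain_apply σ.injective] at h2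
  rw [mem_TP.1 hσ, mem_TP.1 hσ] at h1
  rw [hm s t h1 h2]

theorem fam_mapDomain {τ : S → I} {m : S →₀ ℕ} {σ : Equiv.Perm S}
    (hσ : σ ∈ TP τ) (i : I) : fam τ (m.mapDomain σ) i = fam τ m i := by
  ext x
  unfold fam
  simp only [mem_image, mem_filter, mem_univ, true_and]
  constructor
  · rintro ⟨s, hs, rfl⟩
    obtain ⟨s, rfl⟩ := σ.surjective s
    refine ⟨s, ?_, ?_⟩
    · rw [← hs, mem_TP.1 hσ]
    · rw [Finsupp.mapDomain_apply σ.injective]
  · rintro ⟨s, hs, rfl⟩
    refine ⟨σ s, ?_, ?_⟩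
    · rw [mem_TP.1 hσ, hs]
    · rw [Finsupp.mapDomain_apply σ.injective]

theorem exists_rep (τ : S → I) (A : I → Finset ℕ)
    (hA : ∀ i, (A i).card = (univ.filter fun s => τ s = i).card) :
    ∃ m : S →₀ ℕ, Reg τ m ∧ ∀ i, fam τ m i = A i := by
  have h1 : ∀ i, Nonempty ((univ.filter fun s => τ s = i : Finset S) ≃ (A i : Finset ℕ)) := by
    intro i
    exact ⟨Finset.equivOfCardEq (hA i).symm⟩
  let e := fun i => Classical.choice (h1 i)
  have hs : ∀ s, s ∈ (univ.filter fun t => τ t = τ s : Finset S) := fun s => by simp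
  refine ⟨Finsupp.equivFunOnFinite.symm fun s => ((e (τ s) ⟨s, hs s⟩ : (A (τ s) : Finset ℕ)) : ℕ),
    ?_, ?_⟩
  · intro s t h1 h2
    rw [Finsupp.equivFunOnFinite_symm_apply_apply, Finsupp.equivFunOnFinite_symm_apply_apply] at h2
    have key : ∀ (i : I) (hs' : s ∈ (univ.filter fun t => τ t = i : Finset S))
        (ht' : t ∈ (univ.filter fun t => τ t = i : Finset S)),
        ((e i ⟨s, hs'⟩ : (A i : Finset ℕ)) : ℕ) = ((e i ⟨t, ht'⟩ : (A i : Finset ℕ)) : ℕ) → s = t := by
      intro i hs' ht' h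
      have := (e i).injective (Subtype.ext h)
      exact congrArg Subtype.val this
    have ht' : t ∈ (univ.filter fun x => τ x = τ s : Finset S) := by simp [h1]
    refine key (τ s) (hs s) ht' ?_
    rw [h2]
    have aux : ∀ (i j : I) (hij : i = j) (hi : t ∈ (univ.filter fun x => τ x = i : Finset S))
        (hj : t ∈ (univ.filter fun x => τ x = j : Finset S)),
        ((e i ⟨t, hi⟩ : (A i : Finset ℕ)) : ℕ) = ((e j ⟨t, hj⟩ : (A j : Finset ℕ)) : ℕ) := by
      intro i j hij hi hj
      subst hij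
      rfl
    exact aux _ _ h1.symm _ _
  · intro i
    ext x
    unfold fam
    simp only [mem_image, mem_filter, mem_univ, true_and,
      Finsupp.equivFunOnFinite_symm_apply_apply]
    constructor
    · rintro ⟨s, rfl, rfl⟩
      exact (e (τ s) ⟨s, hs s⟩).2
    · intro hx
      obtain ⟨⟨s, hs'⟩, hs''⟩ := (e i).surjective ⟨x, hx⟩
      have h2 : τ s = i := (mem_filter.1 hs').2
      refine ⟨s, h2, ?_⟩
      subst h2
      rw [hs'']

/-- the sum of the exponents -/
theorem degree_eq [Fintype I] {τ : S → I} {m : S →₀ ℕ} (hm : Reg τ m) :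
    m.degree = ∑ i, ∑ x ∈ fam τ m i, x := by
  rw [Finsupp.degree_eq_sum]
  have h1 : ∀ i, ∑ x ∈ fam τ m i, x = ∑ s ∈ univ.filter (fun s => τ s = i), m s := by
    intro i
    unfold fam
    rw [sum_image]
    intro s hs t ht h
    exact hm s t ((mem_filter.1 hs).2.trans (mem_filter.1 ht).2.symm) h
  rw [sum_congr rfl fun i _ => h1 i]
  exact (sum_fiberwise univ τ fun s => m s).symm

/-! ### the dimension -/

/-- families of finite sets of exponents with total sum `n` -/
def IsFam [Fintype I] (τ : S → I) (n : ℕ) (A : I → Finset ℕ) : Prop :=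
  (∀ i, (A i).card = (univ.filter fun s => τ s = i).card) ∧ ∑ i, ∑ x ∈ A i, x = n

/-- all of them -/
def Fams [Fintype I] (τ : S → I) (n : ℕ) : Finset (I → Finset ℕ) :=
  (Fintype.piFinset fun _ => (range (n + 1)).powerset).filter fun A =>
    (∀ i, (A i).card = (univ.filter fun s => τ s = i).card) ∧ ∑ i, ∑ x ∈ A i, x = n

theorem mem_Fams [Fintype I] {τ : S → I} {n : ℕ} {A : I → Finset ℕ} :
    A ∈ Fams τ n ↔ IsFam τ n A := by
  unfold Fams IsFam
  rw [mem_filter]
  refine ⟨fun h => h.2, fun h => ⟨?_, h⟩⟩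
  rw [Fintype.mem_piFinset]
  intro i
  rw [mem_powerset]
  intro x hx
  rw [mem_range, Nat.lt_succ_iff, ← h.2]
  calc x ≤ ∑ y ∈ A i, y := single_le_sum (f := fun y => y) (fun _ _ => Nat.zero_le _) hx
    _ ≤ _ := single_le_sum (f := fun i => ∑ y ∈ A i, y) (fun _ _ => Nat.zero_le _) (mem_univ i)

variable [Fintype I]

/-- a representative exponent of a family -/
def rep (τ : S → I) (n : ℕ) (A : Fams τ n) : S →₀ ℕ :=
  (exists_rep τ A.1 (mem_Fams.1 A.2).1).choose

theorem rep_reg (τ : S → I) (n : ℕ) (A : Fams τ n) : Reg τ (rep τ n A) :=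
  (exists_rep τ A.1 (mem_Fams.1 A.2).1).choose_spec.1

theorem rep_fam (τ : S → I) (n : ℕ) (A : Fams τ n) (i : I) : fam τ (rep τ n A) i = A.1 i :=
  (exists_rep τ A.1 (mem_Fams.1 A.2).1).choose_spec.2 i

theorem rep_degree (τ : S → I) (n : ℕ) (A : Fams τ n) : (rep τ n A).degree = n := by
  rw [degree_eq (rep_reg τ n A)]
  refine Eq.trans ?_ (mem_Fams.1 A.2).2
  exact sum_congr rfl fun i _ => by rw [rep_fam]

variable (k)

/-- the antisymmetrisation of the monomial of a family -/
def alt (τ : S → I) (n : ℕ) (A : Fams τ n) : MvPolynomial S k :=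
  ∑ σ ∈ TP τ, (((Equiv.Perm.sign σ : ℤˣ) : ℤ) : k) • monomial ((rep τ n A).mapDomain σ) (1 : k)

theorem alt_mem (τ : S → I) (n : ℕ) (A : Fams τ n) : alt k τ n A ∈ Anti k τ := by
  intro ρ hρ
  unfold alt
  rw [map_sum, smul_sum]
  have hρ' : ρ ∈ TP τ := mem_TP.2 hρ
  refine sum_nbij' (fun σ => ρ * σ) (fun σ => ρ⁻¹ * σ) ?_ ?_ ?_ ?_ ?_
  · intro σ hσ; exact mul_mem_TP hρ' hσ
  · intro σ hσ; exact mul_mem_TP (inv_mem_TP hρ') hσ
  · intro σ _; simp
  · intro σ _; simp
  · intro σ _
    rw [map_smul, rename_monomial, ← Finsupp.mapDomain_comp, smul_smul]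
    congr 1
    rw [Equiv.Perm.sign_mul, Units.val_mul, Int.cast_mul, ← mul_assoc, sign_mul_self', one_mul]

theorem alt_homog (τ : S → I) (n : ℕ) (A : Fams τ n) :
    alt k τ n A ∈ homogeneousSubmodule S k n := by
  unfold alt
  refine Submodule.sum_mem _ fun σ _ => Submodule.smul_mem _ _ ?_
  rw [mem_homogeneousSubmodule]
  refine isHomogeneous_monomial _ ?_
  rw [Finsupp.degree_mapDomain]
  exact rep_degree τ n A

theorem coeff_alt (τ : S → I) (n : ℕ) (A A' : Fams τ n) :
    coeff (rep τ n A') (alt k τ n A) = if A' = A then 1 else 0 := by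
  unfold alt
  rw [coeff_sum]
  split_ifs with h
  · subst h
    rw [sum_eq_single (1 : Equiv.Perm S)]
    · simp
    · intro σ hσ h1
      rw [coeff_smul, coeff_monomial, if_neg, smul_zero]
      intro h2
      exact h1 (perm_eq_one (rep_reg τ n A') hσ h2)
    · intro h1
      exact absurd (one_mem_TP τ) h1
  · refine sum_eq_zero fun σ hσ => ?_
    rw [coeff_smul, coeff_monomial, if_neg, smul_zero]
    intro h2
    apply h
    refine Subtype.ext (funext fun i => ?_)
    rw [← rep_fam τ n A' i, ← rep_fam τ n A i, ← h2, fam_mapDomain hσ]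

/-- the coefficients at the representatives -/
def Phi (τ : S → I) (n : ℕ) :
    (Anti k τ ⊓ homogeneousSubmodule S k n : Submodule k (MvPolynomial S k)) →ₗ[k]
      (Fams τ n → k) where
  toFun f := fun A => coeff (rep τ n A) f.1
  map_add' f g := by ext A; simp
  map_smul' c f := by ext A; simp

theorem Phi_injective [CharZero k] (τ : S → I) (n : ℕ) : Function.Injective (Phi k τ n) := by
  rw [← LinearMap.ker_eq_bot, LinearMap.ker_eq_bot']
  rintro ⟨f, hf⟩ h
  rw [Submodule.mem_inf, mem_homogeneousSubmodule] at hf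
  refine Subtype.ext ?_
  show f = 0
  ext m
  rw [coeff_zero]
  by_contra hm
  have h1 : Reg τ m := by
    by_contra h1
    exact hm (coeff_eq_zero_of_not_reg hf.1 h1)
  have h2 : m.degree = n := by
    have := hf.2 hm
    rw [← this, Finsupp.degree_eq_weight_one]
    rfl
  have h3 : fam τ m ∈ Fams τ n := by
    rw [mem_Fams]
    exact ⟨card_fam h1, by rw [← degree_eq h1, h2]⟩
  obtain ⟨σ, hσ, h4⟩ := exists_perm (m' := m) (rep_reg τ n ⟨fam τ m, h3⟩)
    (fun i => rep_fam τ n ⟨fam τ m, h3⟩ i)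
  apply hm
  rw [← h4, coeff_mapDomain hf.1 hσ]
  have h5 := congrFun h ⟨fam τ m, h3⟩
  have h6 : coeff (rep τ n ⟨fam τ m, h3⟩) f = 0 := h5
  rw [h6, mul_zero]

theorem Phi_surjective (τ : S → I) (n : ℕ) : Function.Surjective (Phi k τ n) := by
  intro c
  refine ⟨∑ A : Fams τ n, c A • ⟨alt k τ n A, alt_mem k τ n A, alt_homog k τ n A⟩, ?_⟩
  ext A'
  rw [map_sum, Finset.sum_apply, Finset.sum_eq_single A']
  · rw [map_smul, Pi.smul_apply, smul_eq_mul]
    show c A' * coeff (rep τ n A') (alt k τ n A') = c A'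
    rw [coeff_alt, if_pos rfl, mul_one]
  · intro A _ hA
    rw [map_smul, Pi.smul_apply, smul_eq_mul]
    show c A * coeff (rep τ n A') (alt k τ n A) = 0
    rw [coeff_alt, if_neg (Ne.symm hA), mul_zero]
  · intro h; exact absurd (mem_univ _) h

/-- **Dimension of the space of antisymmetric polynomials of degree `n`.** -/
theorem finrank_anti [CharZero k] (τ : S → I) (n : ℕ) :
    Module.finrank k (Anti k τ ⊓ homogeneousSubmodule S k n : Submodule k (MvPolynomial S k))
      = (Fams τ n).card := by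
  rw [(LinearEquiv.ofBijective (Phi k τ n) ⟨Phi_injective k τ n, Phi_surjective k τ n⟩).finrank_eq]
  rw [Module.finrank_fintype_fun_eq_card, Fintype.card_coe]

end

end Vale.Agent.P066.Lab.H403
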